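import Vale.Agent.P092.H541.CL.Fix0
import Vale.Agent.P092.CL.Lt

/-!
P092, TEAM P, stages 2 and 3, row [CL-FIX0] (helper541; statement: helper437): the instance in the
letters of `CL/Lt`.
-/

set_option linter.all false

open scoped Matrix
open Matrix Module Set MeasureTheory

namespace Vale.Agent.P092.H541.CLF

open Vale.Agent.P092.H303 (FormGroup Idx hyp torF torF_mem root2 root2_mem hypAt_l hypAt_r dgF)
open Vale.Agent.P092.H714.Cl
open Vale.Agent.P092.H370.Po (SGr Inc Sing Col)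
open Vale.Agent.P092.CL

section mat

variable {n : Type} [Fintype n] [DecidableEq n] {k : Type} [Field k]

theorem vecMul_transvection' (x : n → k) (a b : n) (t : k) :
    x ᵥ* transvection a b t = x + Pi.single b (x a * t) := by
  rw [transvection, vecMul_add, vecMul_one]
  congr 1
  funext j
  rw [vecMul, dotProduct]
  by_cases hj : j = b
  · subst hj
    rw [Pi.single_eq_same, Finset.sum_eq_single a]
    · rw [Matrix.single_apply_same]
    · intro i _ hi
      rw [Matrix.single_apply_of_row_ne (Ne.symm hi), mul_zero]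
    · intro h
      exact absurd (Finset.mem_univ a) h
  · rw [Pi.single_eq_of_ne hj]
    refine Finset.sum_eq_zero fun i _ => ?_
    rw [Matrix.single_apply_of_col_ne _ _ (Ne.symm hj), mul_zero]

theorem vecMul_root2 {a b c d : n} (h : a ≠ b) (h' : c ≠ d) (hbc : b ≠ c) (t s : k) (x : n → k) :
    x ᵥ* (root2 h h' t s).1 = x + Pi.single b (x a * t) + Pi.single d (x c * s) := by
  change x ᵥ* (transvection a b t * transvection c d s) = _
  rw [← vecMul_vecMul, vecMul_transvection', vecMul_transvection', Pi.add_apply,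
    Pi.single_eq_of_ne hbc.symm, add_zero]

end mat

variable {k : Type} [NontriviallyNormedField k] {ι : Type} [Fintype ι] [DecidableEq ι]
  {s : ℕ} {σ : k →+* k} {ε : k} {J₀ : Matrix ι ι k}

theorem hf_ep_right (x : Idx (s + 2) ι → k) (i : Fin (s + 2)) :
    hf σ (hyp (s + 2) ε J₀) x (ep k ι i) = ε * x (.inl (.inr i)) := by
  rw [hf_hyp]
  have h0 : (fun i' : ι => (ep k ι i : Idx (s + 2) ι → k) (.inr i')) = 0 := by
    funext i'
    simp [ep]
  rw [h0, hf_zero_right, add_zero]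
  have h1 : ∀ i' : Fin (s + 2), (ep k ι i : Idx (s + 2) ι → k) (.inl (.inr i')) = 0 := fun i' => by
    simp [ep]
  have h2 : ∀ i' : Fin (s + 2), (ep k ι i : Idx (s + 2) ι → k) (.inl (.inl i')) =
      if i' = i then 1 else 0 := fun i' => by
    by_cases h : i' = i
    · subst h
      simp [ep]
    · rw [if_neg h]
      refine Pi.single_eq_of_ne (fun hc => h ?_) _
      exact Sum.inl_injective (Sum.inl_injective hc)
  simp only [h1, h2, map_zero, mul_zero, Finset.sum_const_zero, zero_add]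
  congr 1
  rw [Finset.sum_eq_single i]
  · rw [if_pos rfl, map_one, mul_one]
  · intro j _ hj
    rw [if_neg hj, map_zero, mul_zero]
  · intro h
    exact absurd (Finset.mem_univ i) h

theorem hf_em_right (x : Idx (s + 2) ι → k) (i : Fin (s + 2)) :
    hf σ (hyp (s + 2) ε J₀) x (CL.em k ι i) = x (.inl (.inl i)) := by
  rw [hf_hyp]
  have h0 : (fun i' : ι => (CL.em k ι i : Idx (s + 2) ι → k) (.inr i')) = 0 := by
    funext i'
    simp [CL.em]
  rw [h0, hf_zero_right, add_zero]
  have h1 : ∀ i' : Fin (s + 2), (CL.em k ι i : Idx (s + 2) ι → k) (.inl (.inl i')) = 0 := fun i' => by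
    simp [CL.em]
  have h2 : ∀ i' : Fin (s + 2), (CL.em k ι i : Idx (s + 2) ι → k) (.inl (.inr i')) =
      if i' = i then 1 else 0 := fun i' => by
    by_cases h : i' = i
    · subst h
      simp [CL.em]
    · rw [if_neg h]
      refine Pi.single_eq_of_ne (fun hc => h ?_) _
      exact Sum.inr_injective (Sum.inl_injective hc)
  simp only [h1, h2, map_zero, mul_zero, Finset.sum_const_zero, add_zero]
  rw [Finset.sum_eq_single i]
  · rw [if_pos rfl, map_one, mul_one]
  · intro j _ hj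
    rw [if_neg hj, map_zero, mul_zero]
  · intro h
    exact absurd (Finset.mem_univ i) h

theorem ep_l (i j : Fin (s + 2)) : (ep k ι i : Idx (s + 2) ι → k) (.inl (.inl j)) =
    if i = j then 1 else 0 := by
  by_cases h : i = j
  · subst h
    simp [ep]
  · rw [if_neg h]
    refine Pi.single_eq_of_ne (fun hc => h ?_) _
    exact (Sum.inl_injective (Sum.inl_injective hc)).symm

theorem em_l (i j : Fin (s + 2)) : (CL.em k ι i : Idx (s + 2) ι → k) (.inl (.inl j)) = 0 := by
  simp [CL.em]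

theorem em_r (i j : Fin (s + 2)) : (CL.em k ι i : Idx (s + 2) ι → k) (.inl (.inr j)) =
    if i = j then 1 else 0 := by
  by_cases h : i = j
  · subst h
    simp [CL.em]
  · rw [if_neg h]
    refine Pi.single_eq_of_ne (fun hc => h ?_) _
    exact (Sum.inr_injective (Sum.inl_injective hc)).symm

theorem hf_ep_em (i j : Fin (s + 2)) :
    hf σ (hyp (s + 2) ε J₀) (ep k ι i) (CL.em k ι j) = if i = j then 1 else 0 :=
  (hf_em_right _ _).trans (ep_l _ _)

theorem hf_em_em (i j : Fin (s + 2)) :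
    hf σ (hyp (s + 2) ε J₀) (CL.em k ι i) (CL.em k ι j) = 0 :=
  (hf_em_right _ _).trans (em_l _ _)

/-- the hyperbolic frame of the base -/
theorem hb_base : HB σ (hyp (s + 2) ε J₀) ![ep k ι (0 : Fin (s + 2)), ep k ι 1]
    ![CL.em k ι (0 : Fin (s + 2)), CL.em k ι 1] where
  ee i j := by
    fin_cases i <;> fin_cases j
    · exact hf_ep 0 0
    · exact hf_ep 0 1
    · exact hf_ep 1 0
    · exact hf_ep 1 1
  ff i j := by
    fin_cases i <;> fin_cases j
    · exact hf_em_em 0 0
    · exact hf_em_em 0 1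
    · exact hf_em_em 1 0
    · exact hf_em_em 1 1
  ef i j := by
    fin_cases i <;> fin_cases j
    · exact (hf_ep_em 0 0).trans (by simp)
    · exact (hf_ep_em 0 1).trans (by simp)
    · exact (hf_ep_em 1 0).trans (by simp)
    · exact (hf_ep_em 1 1).trans (by simp)

theorem eps_ne (hF : Frm σ ε (hyp (s + 2) ε J₀)) : ε ≠ 0 := by
  intro h
  have := hF.eps
  rw [h, mul_zero] at this
  exact zero_ne_one this

theorem vecMul_b1 {w : k} (hw : w ≠ 0) (hσ : σ w = w) (x : Idx (s + 2) ι → k)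
    (a : Idx (s + 2) ι) : (x ᵥ* (b1 (ε := ε) (J₀ := J₀) (s := s) hw hσ).1.1) a =
      x a * dgF (s + 2) ι w (Pi.single 0 1) a :=
  vecMul_diagonal _ _ _

theorem vecMul_u1 (hF : Frm σ ε (hyp (s + 2) ε J₀)) (t : k) (x : Idx (s + 2) ι → k) :
    x ᵥ* (u1 hF t).1.1 = x + Pi.single (.inl (.inl 1)) (x (.inl (.inr 0)) * t) +
      Pi.single (.inl (.inl 0)) (x (.inl (.inr 1)) * (-(ε * σ t))) :=
  vecMul_root2 (by simp) (by simp) (by simp) _ _ x

/-- **[CL-FIX0]** in the letters of `CL/Lt` -/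
theorem fix0 [MeasurableSpace k] (hF : Frm σ ε (hyp (s + 2) ε J₀)) {w : k} (hw : w ≠ 0)
    (hσ : σ w = w) (μ₁ : Measure k) (μ₂ : Measure (V2 σ ε)) {m : ℕ}
    (P : SGr σ (hyp (s + 2) ε J₀) m) (c : SGr σ (hyp (s + 2) ε J₀) 1)
    (l : SGr σ (hyp (s + 2) ε J₀) 2) (b : SGr σ (hyp (s + 2) ε J₀) 1) (hl : Inc l P)
    (hb : Inc b P) (hcb : Col c b) (hcl : ¬ Col c l) :
    ∃ g : FormGroup σ (hyp (s + 2) ε J₀), g • (lt hF hw hσ μ₁ μ₂).p0 = c ∧
      (g * (lt hF hw hσ μ₁ μ₂).b1 * g⁻¹) • b = b ∧ (g * (lt hF hw hσ μ₁ μ₂).b1 * g⁻¹) • l = l ∧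
      ∀ t, (g * (lt hF hw hσ μ₁ μ₂).u1 t * g⁻¹) • b = b ∧
        (g * (lt hF hw hσ μ₁ μ₂).u1 t * g⁻¹) • l = l := by
  have he := eps_ne hF
  have h01 : (0 : Fin (s + 2)) ≠ 1 := by simp
  refine fix0_gen (b1 := (lt hF hw hσ μ₁ μ₂).b1) (u1 := (lt hF hw hσ μ₁ μ₂).u1) hF.fo hb_base
    ?_ ?_ ?_ ?_ ?_ P c l b hl hb hcb hcl
  · change Submodule.span k (ep k ι '' {0}) = _
    rw [image_singleton]
    rfl
  · intro x h1 h2
    have h1' : hf σ (hyp (s + 2) ε J₀) x (ep k ι 0) = 0 := h1
    have h2' : hf σ (hyp (s + 2) ε J₀) x (CL.em k ι 0) = 0 := h2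
    rw [hf_ep_right] at h1'
    rw [hf_em_right] at h2'
    have h3 := (mul_eq_zero.1 h1').resolve_left he
    funext a
    refine (vecMul_b1 (ε := ε) (J₀ := J₀) hw hσ x a).trans ?_
    rcases a with (i | i) | i
    · by_cases hi : i = 0
      · subst hi
        rw [h2', zero_mul]
      · change x _ * w ^ (Pi.single (0 : Fin (s + 2)) (1 : ℤ) : Fin (s + 2) → ℤ) i = _
        rw [Pi.single_eq_of_ne hi, zpow_zero, mul_one]
    · by_cases hi : i = 0
      · subst hi
        rw [h3, zero_mul]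
      · change x _ * w ^ (-(Pi.single (0 : Fin (s + 2)) (1 : ℤ) : Fin (s + 2) → ℤ) i) = _
        rw [Pi.single_eq_of_ne hi, neg_zero, zpow_zero, mul_one]
    · exact mul_one _
  · rw [Submodule.mem_span_singleton]
    refine ⟨dgF (s + 2) ι w (Pi.single 0 1) (.inl (.inr 0)), ?_⟩
    funext a
    refine Eq.symm ((vecMul_b1 (ε := ε) (J₀ := J₀) hw hσ _ a).trans ?_)
    change CL.em k ι 0 a * _ = _ * CL.em k ι 0 a
    by_cases ha : a = .inl (.inr 0)
    · subst ha
      rw [mul_comm]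
    · have : CL.em k ι (0 : Fin (s + 2)) a = 0 := Pi.single_eq_of_ne ha _
      rw [this, zero_mul, mul_zero]
  · intro t x h1 h2
    have h1' : hf σ (hyp (s + 2) ε J₀) x (ep k ι 0) = 0 := h1
    have h2' : hf σ (hyp (s + 2) ε J₀) x (ep k ι 1) = 0 := h2
    rw [hf_ep_right] at h1' h2'
    refine (vecMul_u1 hF t x).trans ?_
    rw [(mul_eq_zero.1 h1').resolve_left he, (mul_eq_zero.1 h2').resolve_left he, zero_mul,
      zero_mul, Pi.single_zero, Pi.single_zero, add_zero, add_zero]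
  · intro t
    have h3 : (![CL.em k ι (0 : Fin (s + 2)), CL.em k ι 1] 0 : Idx (s + 2) ι → k) ᵥ*
        ((lt hF hw hσ μ₁ μ₂).u1 t).1.1 = CL.em k ι 0 + t • ep k ι 1 := by
      refine (vecMul_u1 hF t (CL.em k ι (0 : Fin (s + 2)))).trans ?_
      rw [em_r, em_r, if_pos rfl, if_neg h01, zero_mul, one_mul, Pi.single_zero, add_zero]
      congr 1
      funext a
      rw [Pi.smul_apply, smul_eq_mul]
      by_cases ha : a = .inl (.inl 1)
      · subst ha
        have e : (ep k ι (1 : Fin (s + 2)) : Idx (s + 2) ι → k) (.inl (.inl 1)) = 1 :=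
          Pi.single_eq_same _ _
        rw [Pi.single_eq_same, e, mul_one]
      · have e : (ep k ι (1 : Fin (s + 2)) : Idx (s + 2) ι → k) a = 0 := Pi.single_eq_of_ne ha _
        rw [Pi.single_eq_of_ne ha, e, mul_zero]
    rw [h3]
    refine Submodule.add_mem _ ?_ (Submodule.smul_mem _ _ ?_)
    · exact (le_sup_right : Submodule.span k {em k ι (0 : Fin (s + 2))} ≤ _)
        (Submodule.mem_span_singleton_self _)
    · exact (le_sup_left : Submodule.span k {ep k ι (1 : Fin (s + 2))} ≤ _)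
        (Submodule.mem_span_singleton_self _)

end Vale.Agent.P092.H541.CLF
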