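import Vale.Agent.P092.H437.CLKey0
import Vale.Agent.P092.H541.CL.KA

/-!
P092, TEAM P, stage CL-O, Witt index at least 3 (helper541): port of helper437's CLKey0 to a group
`S` with a homomorphism `φ : S →* FormGroup σ J` (forms of every kind): **`KEY_0` from the leg and
the count**.
-/

set_option linter.all false

open scoped InnerProductSpace ENNReal
open Filter Topology ContinuousLinearMap MeasureTheory TopologicalSpace

namespace Vale.Agent.P092.H541.CLF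

open Vale.Agent.P092.SD (Ms UC)
open Vale.Agent.P092.RC (Cm TRN)
open Vale.Agent.P092.H790.CT (PicL lam_norm)
open Vale.Agent.P092.CL (Lt Geo PB HFam act)
open Set Module
open Vale.Agent.P092.H303 (FormGroup)
open Vale.Agent.P092.H714.Cl
open Vale.Agent.P092.H370.Po
open Vale.Agent.P092.H232 (Nin two_ind split_inc)
open Vale.Agent.P092.H218.NC (tsupport_star)
open Vale.Agent.P092.H796 (PL)
open Vale.Agent.P092.H437.P2 (key0_step picL_of perp0 shell pow_fix exists_nu CalP Key0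
  lc_dense Cnt0 Fix0 GDat)

section cnt

variable {n : Type} [Fintype n] [DecidableEq n] {k : Type} [NontriviallyNormedField k]
  [ProperSpace k] {σ : k →+* k} {ε : k} {J : Matrix n n k} {r : ℕ} {S M V₁ V₂ : Type}
  [MeasurableSpace V₁] [MeasurableSpace V₂] [Group S] [TopologicalSpace S]
  [MulAction S (SGr σ J 1)] [ContinuousConstSMul S (SGr σ J 1)]
  [TopologicalSpace M] [CompactSpace M] [MulAction S M] [ContinuousConstSMul S M]

/-- **The count of `KEY_0`** for a group `S` with `φ : S →* FormGroup σ J`. -/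
def Cnt0S [Fact (Continuous σ)] (φ : S →* FormGroup σ J) (L : Lt S (SGr σ J 1) M V₁ V₂) {Γ : Type}
    (q : Γ → S) (K : Type) [NormedAddCommGroup K] [InnerProductSpace ℂ K]
    [CompleteSpace K] : Prop :=
  ∀ (b z : C(SGr σ J 1, ℂ) →⋆ₐ[ℂ] (K →L[ℂ] K)) (l ν : C(SGr σ J 2, ℂ) →⋆ₐ[ℂ] (K →L[ℂ] K)),
    PL (fun x y => Inc x y) b ν → PL (fun x y => Inc x y) z ν → PL (fun x y => Inc x y) z l →
    (∀ a f, Nin (fun (x : SGr σ J 1) (y : SGr σ J 2) => Col x y) a f → b a * l f = 0) →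
    ∀ (a : C(SGr σ J 1, ℂ)) (f : C(SGr σ J 2, ℂ)), IsLocallyConstant a → IsLocallyConstant f →
    ∀ A : Set (SGr σ J 1), IsClopen A → (∀ x ∈ tsupport a, ∀ y ∈ A, ¬ Col x y) →
    ∀ R : ℝ, ∃ T > 0, ∃ (C : ℝ) (d : ℕ), ∀ j : ℝ, 0 ≤ j → ∀ F : Finset Γ,
      (∀ γ ∈ F, γ ∈ L.na1 q R T A ∧ Real.log (L.nm (q γ)) ≤ j) → ∀ ξ : K,
      ∑ γ ∈ F, ‖b (act (φ (q γ))⁻¹ a) (l (act (φ (q γ))⁻¹ f) ξ)‖ ^ 2 ≤ C * (1 + j) ^ d * ‖ξ‖ ^ 2

/-- covariant calculi -/
structure GDatS [Fact (Continuous σ)] {E Γ K : Type} [Group E] [Group Γ] [NormedAddCommGroup K]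
    [InnerProductSpace ℂ K] [CompleteSpace K] (φ : S →* FormGroup σ J) (ι : S →* E)
    (π : E →* (K →L[ℂ] K)) (lam : Γ →* (K →L[ℂ] K)) (W : Set (K →L[ℂ] K)) (q : Γ → S) (r : ℕ)
    (G : ∀ j, SGr σ J j → (C(SGr σ J j, ℂ) →⋆ₐ[ℂ] (K →L[ℂ] K))) : Prop where
  cm : ∀ j, 1 ≤ j → j ≤ r → ∀ X f, Cm W (G j X f)
  cov : ∀ j, 1 ≤ j → j ≤ r → ∀ γ X f, lam γ * G j X f * lam γ⁻¹ = G j X (act (φ (q γ)) f)
  pcov : ∀ j, 1 ≤ j → j ≤ r → ∀ g X f, π (ι g) * G j X f * π (ι g)⁻¹ = G j (φ g • X) f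

theorem GDatS.com_pi [Fact (Continuous σ)] {E Γ K : Type} [Group E] [Group Γ]
    [NormedAddCommGroup K] [InnerProductSpace ℂ K] [CompleteSpace K] {φ : S →* FormGroup σ J}
    {ι : S →* E} {π : E →* (K →L[ℂ] K)}
    {lam : Γ →* (K →L[ℂ] K)} {W : Set (K →L[ℂ] K)} {q : Γ → S} {r : ℕ}
    {G : ∀ j, SGr σ J j → (C(SGr σ J j, ℂ) →⋆ₐ[ℂ] (K →L[ℂ] K))} (h : GDatS φ ι π lam W q r G)
    {j : ℕ} (h1 : 1 ≤ j) (h2 : j ≤ r) {X : SGr σ J j} {g : S} (hg : φ g • X = X) (f) :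
    Commute (G j X f) (π (ι g)) := by
  have h3 := h.pcov j h1 h2 g X f
  rw [hg] at h3
  have h4 : π (ι g)⁻¹ * π (ι g) = 1 := by rw [← map_mul, inv_mul_cancel, map_one]
  change G j X f * π (ι g) = π (ι g) * G j X f
  calc G j X f * π (ι g) = π (ι g) * G j X f * π (ι g)⁻¹ * π (ι g) := by rw [h3]
    _ = π (ι g) * G j X f := by rw [mul_assoc, h4, mul_one]

theorem GDatS.lam_app [Fact (Continuous σ)] {E Γ K : Type} [Group E] [Group Γ]
    [NormedAddCommGroup K] [InnerProductSpace ℂ K] [CompleteSpace K] {φ : S →* FormGroup σ J}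
    {ι : S →* E} {π : E →* (K →L[ℂ] K)}
    {lam : Γ →* (K →L[ℂ] K)} {W : Set (K →L[ℂ] K)} {q : Γ → S} {r : ℕ}
    {G : ∀ j, SGr σ J j → (C(SGr σ J j, ℂ) →⋆ₐ[ℂ] (K →L[ℂ] K))} (h : GDatS φ ι π lam W q r G)
    {j : ℕ} (h1 : 1 ≤ j) (h2 : j ≤ r) (X : SGr σ J j) (γ : Γ) (f) (v : K) :
    G j X f (lam γ v) = lam γ (G j X (act (φ (q γ))⁻¹ f) v) := by
  have h3 := h.cov j h1 h2 γ X (act (φ (q γ))⁻¹ f)
  rw [Vale.Agent.P092.H437.P2.act_inv_act] at h3
  have h4 : lam γ⁻¹ * lam γ = 1 := by rw [← map_mul, inv_mul_cancel, map_one]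
  have h5 : G j X f * lam γ = lam γ * G j X (act (φ (q γ))⁻¹ f) := by
    rw [← h3, mul_assoc, h4, mul_one]
  exact congrArg (fun T : K →L[ℂ] K => T v) h5

variable [IsUltrametricDist k] [Fact (Continuous σ)] [NormedAddCommGroup V₁]
  [NormedAddCommGroup V₂] [ProperSpace V₁] [BorelSpace V₁]
  {L : Lt S (SGr σ J 1) M V₁ V₂} [IsFiniteMeasureOnCompacts L.μ₁]
  [L.μ₁.IsOpenPosMeasure]
  {E Γ K : Type} [Group E] [TopologicalSpace E] [Group Γ] [NormedAddCommGroup K]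
  [InnerProductSpace ℂ K] [CompleteSpace K] {𝒰 : Ultrafilter ℕ} {φ : S →* FormGroup σ J}
  {ι : S →* E}
  {π : E →* (K →L[ℂ] K)} {lam : Γ →* (K →L[ℂ] K)} {W : Set (K →L[ℂ] K)} {Ω : K}
  {m : Set Γ → (K →L[ℂ] K)} {q : Γ → S}
  {G : ∀ j, SGr σ J j → (C(SGr σ J j, ℂ) →⋆ₐ[ℂ] (K →L[ℂ] K))}

/-- the configuration of `KEY_0` is fixed by a conjugate of `b1` and `u1` -/
def Fix0S (r : ℕ) (φ : S →* FormGroup σ J) (L : Lt S (SGr σ J 1) M V₁ V₂) : Prop :=
  ∀ (P : SGr σ J r) (c : SGr σ J 1) (l : SGr σ J 2) (b : SGr σ J 1), ¬ Inc c P → Inc l P →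
    Inc b P → Col c b → ¬ Col c l → ¬ Inc b l → ∃ g : S, g • L.p0 = c ∧
      φ (g * L.b1 * g⁻¹) • b = b ∧ φ (g * L.b1 * g⁻¹) • l = l ∧
      ∀ s, φ (g * L.u1 s * g⁻¹) • b = b ∧ φ (g * L.u1 s * g⁻¹) • l = l

theorem pow_fixS {X : Type} [MulAction (FormGroup σ J) X] {g b : S} {x : X}
    (h : φ (g * b * g⁻¹) • x = x) (N : ℕ) : φ (g * b ^ N * g⁻¹) • x = x := by
  have h1 : (φ g * φ b * (φ g)⁻¹) • x = x := by rwa [← map_mul, ← map_inv, ← map_mul]
  have h2 := pow_fix h1 N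
  rwa [← map_pow, ← map_mul, ← map_inv, ← map_mul] at h2

/-- **`KEY_0` from the leg and the count**, forms of every kind -/
theorem key0_of_cntS (hr : 2 ≤ r) (geo : Geo L)
    (base : PB L 𝒰 ι π lam W Ω m q) (gd : GDatS φ ι π lam W q r G)
    (hG : CalP r (fun i j => Inc (σ := σ) (J := J) (i := i) (j := j)) G)
    (hdom : ∀ (g : S) (u : C(SGr σ J 1, ℂ)) (A : Set (SGr σ J 1)), IsOpen A →
      tsupport u ⊆ A → ∀ ζ : K, ∀ ε > 0, ∃ R : ℝ, ∀ T > 0, ∀ᶠ t : ℕ in (𝒰 : Filter ℕ),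
      ‖G 1 (g • L.p0) u ζ‖ ≤ ‖u‖ * ‖m (L.na1 q R T A) (π (ι (g * L.b1 ^ t * g⁻¹))⁻¹ ζ)‖ + ε)
    (fix : Fix0S r φ L) (cnt : Cnt0S φ L q K) :
    Key0 r (fun j => Col (σ := σ) (J := J) (i := 1) (j := j)) G := by
  intro P c l b hcP hlP hbP hcb hcl hbl u f a hn
  obtain ⟨z, hzl⟩ := exists_inc_le (i := 1) one_le_two l
  obtain ⟨ν, hbν, hzν⟩ := exists_nu hbP (hzl.trans hlP) fun h => hbl (h ▸ hzl)
  have pbν : PL (fun x y => Inc x y) (G 1 b) (G 2 ν) :=
    ⟨fun f g => hG.com 1 2 le_rfl one_le_two hr b ν hbν f g,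
      fun f g h => hG.inc 1 2 le_rfl one_le_two hr b ν hbν f g h⟩
  have pzν : PL (fun x y => Inc x y) (G 1 z) (G 2 ν) :=
    ⟨fun f g => hG.com 1 2 le_rfl one_le_two hr z ν hzν f g,
      fun f g h => hG.inc 1 2 le_rfl one_le_two hr z ν hzν f g h⟩
  have pzl : PL (fun x y => Inc x y) (G 1 z) (G 2 l) :=
    ⟨fun f g => hG.com 1 2 le_rfl one_le_two hr z l hzl f g,
      fun f g h => hG.inc 1 2 le_rfl one_le_two hr z l hzl f g h⟩
  have hbl0 : ∀ a f, Nin (fun (x : SGr σ J 1) (y : SGr σ J 2) => Col x y) a f →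
      G 1 b a * G 2 l f = 0 := by
    refine perp0 (I := fun x y => Inc x y) (I' := fun x y => Inc x y) inc_closed inc_closed
      (fun x y w h1 h2 x' hx y' hy => w.sing x' (h1 hx) y' (h2 hy)) (p := G r P)
      ⟨fun f g => hG.com 1 r le_rfl (by omega) le_rfl b P hbP f g,
        fun f g h => hG.inc 1 r le_rfl (by omega) le_rfl b P hbP f g h⟩
      ⟨fun f g => hG.com 2 r (by omega) hr le_rfl l P hlP f g,
        fun f g h => hG.inc 2 r (by omega) hr le_rfl l P hlP f g h⟩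
  obtain ⟨g, hg, hb1, hl1, hu1⟩ := fix P c l b hcP hlP hbP hcb hcl hbl
  obtain ⟨U, A, hU, hA, haU, huA, hUA⟩ := shell (R := fun x y => Col x y)
    (col_closed (σ := σ) (J := J) Fact.out) (isClosed_tsupport ⇑a) (isClosed_tsupport ⇑u) hn
  -- locally constant functions
  have main : ∀ (f : C(SGr σ J 2, ℂ)) (a : C(SGr σ J 1, ℂ)), IsLocallyConstant f →
      IsLocallyConstant a → tsupport ⇑a ⊆ U → G 1 c u * (G 2 l f * G 1 b a) = 0 := by
    intro f a hf ha haU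
    subst hg
    refine key0_step geo base g (A := A) (c := ‖u‖) (hdom g u A hA.isOpen huA) ?_ ?_ ?_ ?_
    · intro w hw
      rw [mul_assoc, gd.cm 1 le_rfl (by omega) b a w hw, ← mul_assoc,
        gd.cm 2 (by omega) hr l f w hw, mul_assoc]
    · intro N
      exact (gd.com_pi (by omega) hr (pow_fixS hl1 N) f).mul_left
        (gd.com_pi le_rfl (by omega) (pow_fixS hb1 N) a)
    · intro s
      exact (gd.com_pi (by omega) hr (hu1 s).2 f).mul_left
        (gd.com_pi le_rfl (by omega) (hu1 s).1 a)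
    · intro R
      have ha' : IsLocallyConstant ⇑(star a) := ha.comp star
      have hf' : IsLocallyConstant ⇑(star f) := hf.comp star
      obtain ⟨T, hT, C, d, h1⟩ := cnt (G 1 b) (G 1 z) (G 2 l) (G 2 ν) pbν pzν pzl hbl0 (star a)
        (star f) ha' hf' A hA (fun x hx y hy => hUA x (haU (by rwa [tsupport_star] at hx)) y hy) R
      refine ⟨T, hT, C * ‖Ω‖ ^ 2, d, fun j hj F hF' => ?_⟩
      refine le_trans (le_of_eq ?_) ((h1 j hj F hF' Ω).trans (le_of_eq (by ring)))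
      refine Finset.sum_congr rfl fun γ _ => ?_
      congr 1
      have e1 : adjoint (G 2 l f * G 1 b a) = G 1 b (star a) * G 2 l (star f) := by
        change star (G 2 l f * G 1 b a) = _
        rw [star_mul, map_star, map_star]
      rw [e1]
      change ‖G 1 b (star a) (G 2 l (star f) (lam γ Ω))‖ = _
      rw [gd.lam_app (by omega) hr, gd.lam_app le_rfl (by omega), lam_norm (picL_of base.pic)]
  -- all functions
  have hχ : ∃ χ : C(SGr σ J 1, ℂ), IsLocallyConstant ⇑χ ∧ tsupport ⇑χ ⊆ U ∧ a * χ = a := by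
    refine ⟨⟨LocallyConstant.charFn ℂ hU, (LocallyConstant.charFn ℂ hU).continuous⟩,
      (LocallyConstant.charFn ℂ hU).isLocallyConstant, ?_, ?_⟩
    · refine closure_minimal (fun x hx => ?_) hU.isClosed
      by_contra hc
      exact hx ((LocallyConstant.charFn_eq_zero ℂ x hU).2 hc)
    · ext x
      change a x * LocallyConstant.charFn ℂ hU x = a x
      by_cases hx : x ∈ U
      · rw [(LocallyConstant.charFn_eq_one ℂ x hU).2 hx, mul_one]
      · have : a x = 0 := by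
          by_contra h0
          exact hx (haU (subset_tsupport _ h0))
        rw [this, zero_mul]
  obtain ⟨χ, hχ1, hχ2, hχ3⟩ := hχ
  have hcont : ∀ (j : ℕ) (X : SGr σ J j), Continuous (G j X) := fun j X =>
    AddMonoidHomClass.continuous_of_bound (G j X) 1 fun f => by
      rw [one_mul]; exact NonUnitalStarAlgHom.norm_apply_le (G j X) f
  have s1 : ∀ f : C(SGr σ J 2, ℂ), IsLocallyConstant ⇑f →
      G 1 c u * (G 2 l f * G 1 b (a * χ)) = 0 := by
    intro f hf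
    refine lc_dense (P := fun g => G 1 c u * (G 2 l f * G 1 b (g * χ)) = 0) ?_ ?_ a
    · refine isClosed_eq ?_ continuous_const
      exact continuous_const.mul (continuous_const.mul
        ((hcont 1 b).comp (continuous_id.mul continuous_const)))
    · intro g hg
      refine main f (g * χ) hf (hg.comp₂ hχ1 (· * ·)) ?_
      exact (H232.tsupport_mul_r g χ).trans hχ2
  rw [hχ3] at s1
  rw [mul_assoc]
  refine lc_dense (P := fun f => G 1 c u * (G 2 l f * G 1 b a) = 0) ?_ s1 f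
  refine isClosed_eq ?_ continuous_const
  exact continuous_const.mul ((hcont 2 l).mul continuous_const)

end cnt

end Vale.Agent.P092.H541.CLF
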