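import Vale.Agent.P092.H437.CLCnt0
import Vale.Agent.P092.H541.CL.KB

/-!
P092, TEAM P, stage CL-O, Witt index at least 3 (helper541): port of helper437's CLCnt0 to a group
`S` with a homomorphism `φ : S →* FormGroup σ J`: the count of `KEY_0` in column letters gives the
count in the letters of `CL`.
-/

set_option linter.all false

open scoped InnerProductSpace LinearAlgebra.Projectivization Matrix
open Set Topology Module Matrix

namespace Vale.Agent.P092.H541.CLF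

open Vale.Agent.P092.H303 (FormGroup)
open Vale.Agent.P092.H714.Cl (hf Frm)
open Vale.Agent.P092.H370.Po
open Vale.Agent.P092.H100.Gr (Gr Fr)
open Vale.Agent.P092.H416.CL (cor roc cor_roc roc_cor Je rho rho_cor hf_cor pt pt_eq pt_smul
  exists_vec mem_of_span cor_ne roc_ne cor_smul pt_cont pt_inj col_pt)
open Vale.Agent.P092.H820 (pj)
open Vale.Agent.P092.H644.Gr3 (p1)
open Vale.Agent.P092.H232 (Nin)
open Vale.Agent.P092.H796 (PL)
open Vale.Agent.P092.CL (Lt)
open Vale.Agent.P092.H437.P2 (Cnt0N pb pb_apply ts_comp im im_cont im_inj inc_pt mem_im' rep_mem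
  ext_lc im_smul)

variable {n : Type} [Fintype n] [DecidableEq n] {k : Type} [NontriviallyNormedField k]
  [ProperSpace k] [IsUltrametricDist k] {σ : k →+* k} {ε : k} {J : Matrix n n k} {N r : ℕ}
  {Γ K : Type} [NormedAddCommGroup K] [InnerProductSpace ℂ K] [CompleteSpace K]
  {S M V₁ V₂ : Type} [MeasurableSpace V₁] [MeasurableSpace V₂] [Group S] [TopologicalSpace S]
  [MulAction S (SGr σ J 1)] [ContinuousConstSMul S (SGr σ J 1)]
  [TopologicalSpace M] [CompactSpace M] [MulAction S M] [ContinuousConstSMul S M]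

/-- the bridge of the near-wall sets and of the sizes -/
structure NABrS (e : n ≃ Fin (N + 1)) (φ : S →* FormGroup σ J)
    (L : Lt S (SGr σ J 1) M V₁ V₂) : Prop where
  nm : ∀ g, L.nm g = SN.nm (rho e σ J (φ g))
  nw : ∀ g R T A, g ∈ L.NA1 R T A → ∀ i i' l l', ‖(rho e σ J (φ g)).1 i l *
    (rho e σ J (φ g)).1 i' l' - (rho e σ J (φ g)).1 i' l * (rho e σ J (φ g)).1 i l'‖ ≤
      R * SN.nm (rho e σ J (φ g))
  att : ∀ g R T A, g ∈ L.NA1 R T A → SN.Att T (pt e '' A) (rho e σ J (φ g))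

/-- **The adapter.** -/
theorem cnt0S_of_N [Fact (Continuous σ)] (e : n ≃ Fin (N + 1)) {φ : S →* FormGroup σ J}
    {L : Lt S (SGr σ J 1) M V₁ V₂} (hL : NABrS e φ L)
    {q : Γ → S} (h : Cnt0N e σ J (fun γ => φ (q γ)) K) : Cnt0S φ L q K := by
  intro b z l ν hbν hzν hzl hbl a f ha hfl A hA hopp R
  obtain ⟨P1, hP1⟩ : ∃ P1 : C(SGr σ J 1, RC.YY k N), ∀ x, P1 x = pt e x :=
    ⟨⟨pt e, pt_cont e⟩, fun _ => rfl⟩
  obtain ⟨P2, hP2⟩ : ∃ P2 : C(SGr σ J 2, Gr k (Fin (N + 1)) 2), ∀ x, P2 x = im e x :=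
    ⟨⟨im e, im_cont e⟩, fun _ => rfl⟩
  have hP1i : Function.Injective P1 := fun x y hxy => pt_inj e (by rw [← hP1, ← hP1, hxy])
  have hP2i : Function.Injective P2 := fun x y hxy => im_inj e (by rw [← hP2, ← hP2, hxy])
  -- relations
  have hnin : ∀ (a : SN.CY k N) (f : SN.CG k N 2),
      Nin (fun x (L : Gr k (Fin (N + 1)) 2) => (p1 x).1 ≤ L.1) a f →
      Nin (fun (x : SGr σ J 1) (y : SGr σ J 2) => Inc x y) (a.comp P1) (f.comp P2) := by
    intro a f hn x hx y hy hxy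
    refine hn (P1 x) (ts_comp P1 a hx) (P2 y) (ts_comp P2 f hy) ?_
    rw [hP1, hP2]
    exact (inc_pt e x y).1 hxy
  have hcol : ∀ (a : SN.CY k N) (f : SN.CG k N 2),
      (∀ x ∈ tsupport ⇑a, ∀ L ∈ tsupport ⇑f, ∃ y ∈ L.1, hf σ (Je e J) x.rep y ≠ 0) →
      Nin (fun (x : SGr σ J 1) (y : SGr σ J 2) => Col x y) (a.comp P1) (f.comp P2) := by
    intro a f hn x hx y hy hxy
    obtain ⟨v, hv, h0⟩ := hn (P1 x) (ts_comp P1 a hx) (P2 y) (ts_comp P2 f hy)
    rw [hP1] at h0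
    rw [hP2] at hv
    apply h0
    have h1 := hxy _ (rep_mem e x) _ (mem_im'.1 hv)
    rwa [← hf_cor e, cor_roc, cor_roc] at h1
  -- the form as a closed relation
  have hrel : ∀ x y : RC.YY k N, hf σ (Je e J) x.rep y.rep = 0 ↔
      Ort σ (Je e J) (p1 x).1 (p1 y).1 := by
    intro x y
    constructor
    · intro h u hu v hv
      have hu' : u ∈ Submodule.span k {x.rep} := by
        have := H644.Gr3.p1_mk x.rep x.rep_nonzero
        rw [Projectivization.mk_rep] at this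
        rwa [← this]
      have hv' : v ∈ Submodule.span k {y.rep} := by
        have := H644.Gr3.p1_mk y.rep y.rep_nonzero
        rw [Projectivization.mk_rep] at this
        rwa [← this]
      obtain ⟨c, rfl⟩ := Submodule.mem_span_singleton.1 hu'
      obtain ⟨d, rfl⟩ := Submodule.mem_span_singleton.1 hv'
      rw [H714.Cl.hf_smul_left, H714.Cl.hf_smul_right, h, mul_zero, mul_zero]
    · intro h
      exact h _ (H644.Gr3.mem_p1.1 le_rfl) _ (H644.Gr3.mem_p1.1 le_rfl)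
  have hcl : IsClosed {p : RC.YY k N × RC.YY k N | hf σ (Je e J) p.1.rep p.2.rep = 0} := by
    have h1 := (ortG_closed (J := Je e J) (Fact.out : Continuous σ) (i := 1) (j := 1)).preimage
      (f := fun p : RC.YY k N × RC.YY k N => (p1 p.1, p1 p.2))
      ((H644.Gr3.p1_cont.comp continuous_fst).prodMk (H644.Gr3.p1_cont.comp continuous_snd))
    convert h1 using 1
    ext p
    exact hrel p.1 p.2
  have hA' : IsCompact (P1 '' A) := hA.isClosed.isCompact.image P1.continuous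
  have hKa : IsCompact (P1 '' tsupport ⇑a) := (isClosed_tsupport _).isCompact.image P1.continuous
  obtain ⟨U, V, hU, hV, hKU, hAV, hUV⟩ := generalized_tube_lemma hKa hA' hcl.isOpen_compl (by
    rintro ⟨x, y⟩ ⟨⟨x', hx', rfl⟩, ⟨y', hy', rfl⟩⟩ h0
    refine hopp x' hx' y' hy' ((col_pt e x' y').2 ?_)
    have h1 : hf σ (Je e J) (P1 x').rep (P1 y').rep = 0 := h0
    rwa [hP1, hP1] at h1)
  obtain ⟨a', ha', haU, ea⟩ := ext_lc P1.continuous hP1i ha hU hKU
  obtain ⟨f', hfl', -, ef⟩ := ext_lc P2.continuous hP2i hfl isOpen_univ (subset_univ _)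
  have ea' : ∀ x, a' (P1 x) = a x := fun x => congrArg (fun g : C(SGr σ J 1, ℂ) => g x) ea
  have ef' : ∀ x, f' (P2 x) = f x := fun x => congrArg (fun g : C(SGr σ J 2, ℂ) => g x) ef
  obtain ⟨T, hT, C, d, h1⟩ := h (pb P1 b) (pb P1 z) (pb P2 l) (pb P2 ν)
    (fun a f => hbν.com _ _) (fun a f hn => hbν.inc _ _ (hnin a f hn))
    (fun a f => hzν.com _ _) (fun a f hn => hzν.inc _ _ (hnin a f hn))
    (fun a f => hzl.com _ _) (fun a f hn => hzl.inc _ _ (hnin a f hn))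
    (fun a f hn => hbl _ _ (hcol a f hn)) a' f' ha' hfl' (P1 '' A) hA'
    (fun x hx y hy => hUV (mk_mem_prod (haU hx) (hAV hy))) R
  refine ⟨T, hT, C, d, fun j hj F hF ξ => ?_⟩
  have h2 := h1 j hj F (fun γ hγ => ⟨hL.nw _ _ _ _ (hF γ hγ).1, ?_, ?_⟩) ξ
  · refine le_trans (le_of_eq ?_) h2
    refine Finset.sum_congr rfl fun γ _ => ?_
    have e1 : (SN.act (rho e σ J (φ (q γ)))⁻¹ a').comp P1 = CL.act (φ (q γ))⁻¹ a := by
      ext x
      change a' (((rho e σ J (φ (q γ)))⁻¹)⁻¹ • P1 x) = a (((φ (q γ))⁻¹)⁻¹ • x)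
      rw [inv_inv, inv_inv, ← ea', hP1, hP1, pt_smul]
    have e2 : (SN.actG (rho e σ J (φ (q γ)))⁻¹ f').comp P2 = CL.act (φ (q γ))⁻¹ f := by
      ext x
      change f' (((rho e σ J (φ (q γ)))⁻¹)⁻¹ • P2 x) = f (((φ (q γ))⁻¹)⁻¹ • x)
      rw [inv_inv, inv_inv, ← ef', hP2, hP2, im_smul]
    rw [pb_apply, pb_apply, e1, e2]
  · have h3 := hL.att _ _ _ _ (hF γ hγ).1
    have e3 : P1 '' A = pt e '' A := by
      ext x
      constructor
      · rintro ⟨y, hy, rfl⟩
        exact ⟨y, hy, (hP1 y).symm⟩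
      · rintro ⟨y, hy, rfl⟩
        exact ⟨y, hy, hP1 y⟩
    rw [e3]
    exact h3
  · rw [← hL.nm]
    exact (hF γ hγ).2

end Vale.Agent.P092.H541.CLF
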