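import Vale.Agent.P092.H541.CL.WiF
import Vale.Agent.P092.CL.LtO

/-!
P092, TEAM P, stage CL-O (helper541): row [CL-FIX0] in the letters of `CL/LtO`.
-/

set_option linter.all false

open scoped Matrix
open Matrix Module Set MeasureTheory

namespace Vale.Agent.P092.H541.CLF

open Vale.Agent.P092.H303 (FormGroup Idx hyp torF torF_mem dgF)
open Vale.Agent.P092.H714.Cl
open Vale.Agent.P092.H714.Sg (Fm)
open Vale.Agent.P092.H370.Po (SGr Inc Sing Col WI)
open Vale.Agent.P092.H370.Fo (Fo Wf EU ei EP vecMul_ei)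
open Vale.Agent.P092.CL

variable {k : Type} [NontriviallyNormedField k] {ι : Type} [Fintype ι] [DecidableEq ι]
  {J₀ : Matrix ι ι k}

/-- `OF.wf` of `CL/LtO2`, without its closure -/
theorem wfO (h : OF J₀) (s : ℕ) : Wf (RingHom.id k) 1 (hyp (s + 2) 1 J₀) (s + 2) :=
  wf_fm (h.fm s) (fun y hy => by
    by_contra h0
    exact h.an y h0 hy) (Or.inr h.ne)

theorem vecMul_u1O (h : OF J₀) (s : ℕ) (t : k) (x : Idx (s + 2) ι → k) :
    x ᵥ* (u1O h s t).1.1.1 = x + (hf (RingHom.id k) (hyp (s + 2) 1 J₀) x (ep k ι 0) * t) •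
      (ep k ι 1 : Idx (s + 2) ι → k) -
      (hf (RingHom.id k) (hyp (s + 2) 1 J₀) x (ep k ι 1) * t) • ep k ι 0 := by
  refine (vecMul_ei (h.fm s) (h.ep1 s t) x).trans ?_
  rw [hf_smul_right]
  simp only [RingHom.id_apply]
  module

/-- **[CL-FIX0]** in the letters of `CL/LtO` -/
theorem fix0O [MeasurableSpace k] (h : OF J₀) (s : ℕ) {a : k} (ha : a ≠ 0) (μ₁ : Measure k)
    (μ₂ : Measure (ι → k)) {m : ℕ} (P : SGr (RingHom.id k) (hyp (s + 2) 1 J₀) m)
    (c : SGr (RingHom.id k) (hyp (s + 2) 1 J₀) 1) (l : SGr (RingHom.id k) (hyp (s + 2) 1 J₀) 2)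
    (b : SGr (RingHom.id k) (hyp (s + 2) 1 J₀) 1) (hl : Inc l P) (hb : Inc b P) (hcb : Col c b)
    (hcl : ¬ Col c l) :
    ∃ g : EUF (RingHom.id k) 1 (hyp (s + 2) 1 J₀), g • (ltO h s ha μ₁ μ₂).p0 = c ∧
      (g * (ltO h s ha μ₁ μ₂).b1 * g⁻¹) • b = b ∧ (g * (ltO h s ha μ₁ μ₂).b1 * g⁻¹) • l = l ∧
      ∀ t, (g * (ltO h s ha μ₁ μ₂).u1 t * g⁻¹) • b = b ∧
        (g * (ltO h s ha μ₁ μ₂).u1 t * g⁻¹) • l = l := by
  have h01 : (0 : Fin (s + 2)) ≠ 1 := by simp
  have key := fix0_EU (b1 := (b1O h s ha).1) (u1 := fun t => (u1O h s t).1) (wfO h s).fo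
    (hb_base (s := s)) (p0 := p0) (by
      change Submodule.span k (ep k ι '' {0}) = _
      rw [image_singleton]
      rfl) ?_ ?_ ?_ ?_ P c l b hl hb hcb hcl
  · obtain ⟨g, hg, h1, h2, h3, h4⟩ := key
    exact ⟨⟨g, hg⟩, h1, h2, h3, h4⟩
  · intro x h1 h2
    have h1' : hf (RingHom.id k) (hyp (s + 2) 1 J₀) x (ep k ι 0) = 0 := h1
    have h2' : hf (RingHom.id k) (hyp (s + 2) 1 J₀) x (CL.em k ι 0) = 0 := h2
    rw [hf_ep_right, one_mul] at h1'
    rw [hf_em_right] at h2'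
    funext i
    refine (vecMul_b1 (ε := 1) (J₀ := J₀) (pow_ne_zero 2 ha) rfl x i).trans ?_
    rcases i with (i | i) | i
    · by_cases hi : i = 0
      · subst hi
        rw [h2', zero_mul]
      · change x _ * (a ^ 2) ^ (Pi.single (0 : Fin (s + 2)) (1 : ℤ) : Fin (s + 2) → ℤ) i = _
        rw [Pi.single_eq_of_ne hi, zpow_zero, mul_one]
    · by_cases hi : i = 0
      · subst hi
        rw [h1', zero_mul]
      · change x _ * (a ^ 2) ^ (-(Pi.single (0 : Fin (s + 2)) (1 : ℤ) : Fin (s + 2) → ℤ) i) = _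
        rw [Pi.single_eq_of_ne hi, neg_zero, zpow_zero, mul_one]
    · exact mul_one _
  · rw [Submodule.mem_span_singleton]
    refine ⟨dgF (s + 2) ι (a ^ 2) (Pi.single 0 1) (.inl (.inr 0)), ?_⟩
    funext i
    refine Eq.symm ((vecMul_b1 (ε := 1) (J₀ := J₀) (pow_ne_zero 2 ha) rfl _ i).trans ?_)
    change CL.em k ι 0 i * _ = _ * CL.em k ι 0 i
    by_cases hi : i = .inl (.inr 0)
    · subst hi
      rw [mul_comm]
    · have : CL.em k ι (0 : Fin (s + 2)) i = 0 := Pi.single_eq_of_ne hi _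
      rw [this, zero_mul, mul_zero]
  · intro t x h1 h2
    have h1' : hf (RingHom.id k) (hyp (s + 2) 1 J₀) x (ep k ι 0) = 0 := h1
    have h2' : hf (RingHom.id k) (hyp (s + 2) 1 J₀) x (ep k ι 1) = 0 := h2
    refine (vecMul_u1O h s t x).trans ?_
    rw [h1', h2', zero_mul, zero_smul, zero_smul, add_zero, sub_zero]
  · intro t
    have e1 : hf (RingHom.id k) (hyp (s + 2) 1 J₀) (CL.em k ι (0 : Fin (s + 2)))
        (ep k ι 1) = 0 := by
      rw [hf_ep_right, em_r, if_neg h01, mul_zero]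
    have h3 := vecMul_u1O h s t (CL.em k ι (0 : Fin (s + 2)))
    rw [e1, zero_mul, zero_smul, sub_zero] at h3
    change CL.em k ι (0 : Fin (s + 2)) ᵥ* (u1O h s t).1.1.1 ∈ _
    rw [h3]
    refine Submodule.add_mem _ ?_ (Submodule.smul_mem _ _ ?_)
    · exact (le_sup_right : Submodule.span k {CL.em k ι (0 : Fin (s + 2))} ≤ _)
        (Submodule.mem_span_singleton_self _)
    · exact (le_sup_left : Submodule.span k {ep k ι (1 : Fin (s + 2))} ≤ _)
        (Submodule.mem_span_singleton_self _)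

end Vale.Agent.P092.H541.CLF
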