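import Vale.Agent.P092.H541.CL.KB
import Vale.Agent.P092.H541.CL.Fix0O

/-!
P092, TEAM P (helper541): `Fix0` for the letters `lt` (helper142) and `ltO` (helper387).
-/

set_option linter.all false

open scoped Matrix
open Matrix Module Set MeasureTheory

namespace Vale.Agent.P092.H541.CLF

open Vale.Agent.P092.H303 (FormGroup Idx hyp)
open Vale.Agent.P092.H714.Cl
open Vale.Agent.P092.H370.Po (SGr Inc Sing Col)
open Vale.Agent.P092.CL
open Vale.Agent.P092.H437.P2 (Fix0)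

variable {k : Type} [NontriviallyNormedField k] [ProperSpace k] {ι : Type} [Fintype ι]
  [DecidableEq ι] {s : ℕ} {σ : k →+* k} {ε : k} {J₀ : Matrix ι ι k}

/-- **[CL-FIX0]** for `lt` -/
theorem fix0_lt [MeasurableSpace k] (hF : Frm σ ε (hyp (s + 2) ε J₀)) {w : k} (hw : w ≠ 0)
    (hσ : σ w = w) (μ₁ : Measure k) (μ₂ : Measure (V2 σ ε)) : Fix0 (lt hF hw hσ μ₁ μ₂) :=
  fun P c l b _ hl hb hcb hcl _ => fix0 hF hw hσ μ₁ μ₂ P c l b hl hb hcb hcl

/-- **[CL-FIX0]** for `ltO` -/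
theorem fix0_ltO [MeasurableSpace k] (h : OF J₀) (s : ℕ) {a : k} (ha : a ≠ 0) (μ₁ : Measure k)
    (μ₂ : Measure (ι → k)) :
    Fix0S (s + 2) (EUF (RingHom.id k) 1 (hyp (s + 2) 1 J₀)).subtype (ltO h s ha μ₁ μ₂) :=
  fun P c l b _ hl hb hcb hcl _ => fix0O h s ha μ₁ μ₂ P c l b hl hb hcb hcl

end Vale.Agent.P092.H541.CLF
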