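import Vale.Agent.P092.H370.Fo5

/-!
P092, TEAM P, stages 2 and 3, row [CL-FIX0] (helper541; statement: helper437): transitivity of the
group `EU` on hyperbolic frames, for forms of any kind; the conjugates of the wall element `b1` and
of the root group `e₁ + e₂` which fix a line `l` and a point `b` which is orthogonal to `l` and to
`c`.
-/

set_option linter.all false

open Matrix Module Set

namespace Vale.Agent.P092.H541.CLF

open Vale.Agent.P092.H303 (FormGroup)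
open Vale.Agent.P092.H714.Cl
open Vale.Agent.P092.H714.Sg (Fm)
open Vale.Agent.P092.H370.Po
open Vale.Agent.P092.H370.Fo hiding trans_SGr

variable {n : Type} [Fintype n] [DecidableEq n] {k : Type} [Field k]
  {σ : k →+* k} {ε : k} {J : Matrix n n k}

/-- hyperbolic frames -/
structure HB (σ : k →+* k) (J : Matrix n n k) {m : ℕ} (e f : Fin m → n → k) : Prop where
  ee : ∀ i j, hf σ J (e i) (e j) = 0
  ff : ∀ i j, hf σ J (f i) (f j) = 0
  ef : ∀ i j, hf σ J (e i) (f j) = if i = j then 1 else 0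

theorem ort_span_span {A B : Set (n → k)} (h : ∀ x ∈ A, ∀ y ∈ B, hf σ J x y = 0) :
    Ort σ J (Submodule.span k A) (Submodule.span k B) := by
  intro x hx y hy
  induction hx using Submodule.span_induction with
  | mem x hx =>
    induction hy using Submodule.span_induction with
    | mem y hy => exact h x hx y hy
    | zero => exact hf_zero_right σ J _
    | add y y' _ _ h1 h2 => rw [hf_add_right, h1, h2, add_zero]
    | smul c y _ h1 => rw [hf_smul_right, h1, mul_zero]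
  | zero => exact hf_zero_left σ J _
  | add x x' _ _ h1 h2 => rw [hf_add_left, h1, h2, add_zero]
  | smul c x _ h1 => rw [hf_smul_left, h1, mul_zero]

/-- **transitivity on hyperbolic frames**, up to the torus of the frame -/
theorem frame_trans (hF : Fo σ ε J) {m : ℕ} {e f e' f' : Fin m → n → k} (h : HB σ J e f)
    (h' : HB σ J e' f') :
    ∃ g ∈ EU σ ε J, ∃ a : Fin m → k, (∀ i, a i ≠ 0) ∧ (∀ i, e i ᵥ* g.1 = a i • e' i) ∧
      ∀ i, f i ᵥ* g.1 = σ (a i)⁻¹ • f' i := by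
  have key : ∀ s : ℕ, s ≤ m → ∃ g ∈ EU σ ε J, ∃ a : Fin m → k,
      ∀ i : Fin m, i.1 < s → a i ≠ 0 ∧ e i ᵥ* g.1 = a i • e' i := by
    intro s
    induction s with
    | zero =>
      intro _
      exact ⟨1, one_mem _, fun _ => 1, fun i hi => absurd hi (Nat.not_lt_zero _)⟩
    | succ s ih =>
      intro hs
      obtain ⟨g, hg, a, ha⟩ := ih (by omega)
      have iso := mem_formGroup.1 (EU_le hF.fm hg)
      set i₀ : Fin m := ⟨s, hs⟩ with hi₀
      set Z : Submodule k (n → k) := Submodule.span k (e' '' {i | i.1 < s}) with hZ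
      have hb : ∀ i : Fin m, i.1 < s → e' i = (a i)⁻¹ • (e i ᵥ* g.1) := fun i hi => by
        rw [(ha i hi).2, smul_smul, inv_mul_cancel₀ (ha i hi).1, one_smul]
      have hne : ∀ i : Fin m, i.1 < s → i ≠ i₀ := fun i hi h0 => by
        rw [h0] at hi
        exact lt_irrefl _ hi
      have o1 : ∀ x ∈ Z, ∀ y : n → k, (∀ i : Fin m, i.1 < s → hf σ J (e' i) y = 0) →
          hf σ J x y = 0 := by
        intro x hx y hy
        have := ort_span_span (σ := σ) (J := J) (A := e' '' {i | i.1 < s}) (B := {y}) (by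
          rintro _ ⟨i, hi, rfl⟩ z hz
          rw [Set.mem_singleton_iff.1 hz]
          exact hy i hi)
        exact this x hx y (Submodule.mem_span_singleton_self y)
      have hsing : Sing σ J Z := by
        refine ort_span_span ?_
        rintro _ ⟨i, hi, rfl⟩ _ ⟨j, hj, rfl⟩
        exact h'.ee i j
      have huu : hf σ J (e i₀ ᵥ* g.1) (e i₀ ᵥ* g.1) = 0 := by rw [iso, h.ee]
      have hZu : ∀ x ∈ Z, hf σ J x (e i₀ ᵥ* g.1) = 0 := fun x hx =>
        o1 x hx _ fun i hi => by rw [hb i hi, hf_smul_left, iso, h.ee, mul_zero]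
      have hZw : ∀ x ∈ Z, hf σ J x (e' i₀) = 0 := fun x hx =>
        o1 x hx _ fun i hi => h'.ee _ _
      have hu1 : e i₀ ᵥ* g.1 ∉ Z := fun hc => by
        have h1 := o1 _ hc (f i₀ ᵥ* g.1) fun i hi => by
          rw [hb i hi, hf_smul_left, iso, h.ef, if_neg (hne i hi), mul_zero]
        rw [iso, h.ef, if_pos rfl] at h1
        exact one_ne_zero h1
      have hw1 : e' i₀ ∉ Z := fun hc => by
        have h1 := o1 _ hc (f' i₀) fun i hi => by rw [h'.ef, if_neg (hne i hi)]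
        rw [h'.ef, if_pos rfl] at h1
        exact one_ne_zero h1
      obtain ⟨g', hg', c, hc, h1, h2⟩ := exists_adj hF hsing huu (h'.ee i₀ i₀) hZu hZw hu1 hw1
      refine ⟨g * g', mul_mem hg hg', Function.update a i₀ c, fun i hi => ?_⟩
      rw [vecMul_mul']
      rcases Nat.lt_succ_iff_lt_or_eq.1 hi with hlt | heq
      · rw [Function.update_of_ne (hne i hlt), (ha i hlt).2, smul_vecMul,
          h2 _ (Submodule.subset_span ⟨i, hlt, rfl⟩)]
        exact ⟨(ha i hlt).1, rfl⟩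
      · have hi0 : i = i₀ := Fin.ext heq
        rw [hi0, Function.update_self]
        exact ⟨hc, h1⟩
  obtain ⟨g, hg, a, ha⟩ := key m le_rfl
  have iso := mem_formGroup.1 (EU_le hF.fm hg)
  have ha0 : ∀ i, a i ≠ 0 := fun i => (ha i i.2).1
  have ha1 : ∀ i, e i ᵥ* g.1 = a i • e' i := fun i => (ha i i.2).2
  obtain ⟨g', hg', h1, h2, -⟩ := dual_trans hF.fm (fun i => a i • e' i) (fun i => f i ᵥ* g.1)
    (fun i => σ (a i)⁻¹ • f' i)
    (fun i j => by rw [hf_smul_left, hf_smul_right, h'.ee, mul_zero, mul_zero])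
    (fun i j => by rw [iso, h.ff])
    (fun i j => by rw [hf_smul_left, hf_smul_right, h'.ff, mul_zero, mul_zero])
    (fun i j => by rw [← ha1, iso, h.ef])
    (fun i j => by
      rw [hf_smul_left, hf_smul_right, h'.ef, hF.fm.inv]
      by_cases hij : i = j
      · rw [if_pos hij, hij, mul_one, mul_inv_cancel₀ (ha0 j)]
      · rw [if_neg hij, mul_zero, mul_zero])
  refine ⟨g * g', mul_mem hg hg', a, ha0, fun i => ?_, fun i => ?_⟩
  · rw [vecMul_mul', ha1]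
    exact h1 i
  · rw [vecMul_mul']
    exact h2 i

/-- a line and a point which is not orthogonal to it -/
theorem exists_line_frame (hF : Fm σ ε J) {c : n → k} (hc : hf σ J c c = 0)
    {l : SGr σ J 2} (hl : ∃ d ∈ l.S, hf σ J c d ≠ 0) :
    ∃ z d z' : n → k, l.S = Submodule.span k {z} ⊔ Submodule.span k {d} ∧
      HB σ J ![c, z] ![d, z'] := by
  obtain ⟨d₁, hd₁, hcd₁⟩ := hl
  obtain ⟨d, hdl, hcd⟩ : ∃ d ∈ l.S, hf σ J c d = 1 :=
    ⟨σ (hf σ J c d₁)⁻¹ • d₁, l.S.smul_mem _ hd₁, by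
      rw [hf_smul_right, hF.inv, inv_mul_cancel₀ hcd₁]⟩
  have hd0 : d ≠ 0 := by
    rintro h0
    rw [h0, hf_zero_right] at hcd
    exact zero_ne_one hcd
  obtain ⟨y, hy, hyd⟩ : ∃ y ∈ l.S, y ∉ Submodule.span k {d} := by
    apply SetLike.not_le_iff_exists.1
    intro h
    have h1 := Submodule.finrank_mono h
    rw [l.dim, finrank_span_singleton hd0] at h1
    omega
  obtain ⟨z, hz⟩ : ∃ z : n → k, z = y - σ (hf σ J c y) • d := ⟨_, rfl⟩
  have hzl : z ∈ l.S := hz ▸ l.S.sub_mem hy (l.S.smul_mem _ hdl)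
  have hcz : hf σ J c z = 0 := by
    rw [hz, hf_sub_right, hf_smul_right, hF.inv, hcd, mul_one, sub_self]
  have hzd : z ∉ Submodule.span k {d} := fun h => hyd (by
    have : y = z + σ (hf σ J c y) • d := by rw [hz]; abel
    rw [this]
    exact Submodule.add_mem _ h (Submodule.smul_mem _ _ (Submodule.mem_span_singleton_self d)))
  have hz0 : z ≠ 0 := fun h => hzd (by rw [h]; exact Submodule.zero_mem _)
  have hll : ∀ x ∈ l.S, ∀ y ∈ l.S, hf σ J x y = 0 := l.sing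
  have hspan : l.S = Submodule.span k {z} ⊔ Submodule.span k {d} := by
    rw [sup_comm]
    refine (Submodule.eq_of_le_of_finrank_eq (sup_le
      ((Submodule.span_singleton_le_iff_mem _ _).2 hdl)
      ((Submodule.span_singleton_le_iff_mem _ _).2 hzl)) ?_).symm
    rw [finrank_sup_span hzd, finrank_span_singleton hd0, l.dim]
  -- the dual of `z`
  obtain ⟨y₁, hy₁⟩ := hF.nondeg z hz0
  obtain ⟨y₀, hzy₀⟩ : ∃ y₀, hf σ J z y₀ = 1 :=
    ⟨σ (hf σ J z y₁)⁻¹ • y₁, by rw [hf_smul_right, hF.inv, inv_mul_cancel₀ hy₁]⟩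
  have hdc : hf σ J d c = ε := by rw [hF.herm, hcd, map_one, mul_one]
  have hzc : hf σ J z c = 0 := hF.symm0 hcz
  have he := hF.eps
  obtain ⟨y₂, hy₂⟩ : ∃ y₂ : n → k,
      y₂ = y₀ + (-(ε * σ (hf σ J d y₀))) • c + (-σ (hf σ J c y₀)) • d := ⟨_, rfl⟩
  have hcy₂ : hf σ J c y₂ = 0 := by
    rw [hy₂, hf_add_right, hf_add_right, hf_smul_right, hf_smul_right, hc, hcd, map_neg, map_neg,
      hF.inv]
    ring
  have hdy₂ : hf σ J d y₂ = 0 := by
    rw [hy₂, hf_add_right, hf_add_right, hf_smul_right, hf_smul_right, hdc, hll d hdl d hdl,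
      map_neg, map_mul, hF.seps, hF.inv]
    linear_combination (-hf σ J d y₀) * he
  have hzy₂ : hf σ J z y₂ = 1 := by
    rw [hy₂, hf_add_right, hf_add_right, hf_smul_right, hf_smul_right, hzc, hll z hzl d hdl, hzy₀]
    ring
  obtain ⟨α, hα⟩ := hF.corr (hll z hzl z hzl) (y := y₂) (by rw [hzy₂]; exact one_ne_zero)
  have hcz' : hf σ J c (y₂ + α • z) = 0 := by
    rw [hf_add_right, hf_smul_right, hcy₂, hcz, mul_zero, add_zero]
  have hdz' : hf σ J d (y₂ + α • z) = 0 := by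
    rw [hf_add_right, hf_smul_right, hdy₂, hll d hdl z hzl, mul_zero, add_zero]
  have hzz' : hf σ J z (y₂ + α • z) = 1 := by
    rw [hf_add_right, hf_smul_right, hzy₂, hll z hzl z hzl, mul_zero, add_zero]
  refine ⟨z, d, y₂ + α • z, hspan, ?_, ?_, ?_⟩
  · intro i j
    fin_cases i <;> fin_cases j
    · exact hc
    · exact hcz
    · exact hzc
    · exact hll z hzl z hzl
  · intro i j
    fin_cases i <;> fin_cases j
    · exact hll d hdl d hdl
    · exact hdz'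
    · exact hF.symm0 hdz'
    · exact hα
  · intro i j
    fin_cases i <;> fin_cases j
    · exact hcd
    · exact hcz'
    · exact hll z hzl d hdl
    · exact hzz'

/-- a stable subspace -/
theorem smul_eq_of_le {i : ℕ} {g : FormGroup σ J} {X : SGr σ J i}
    (h : ∀ x ∈ X.S, x ᵥ* g.1.1 ∈ X.S) : g • X = X := by
  rw [smul_eq_iff_eq_inv_smul]
  symm
  refine SGr.eq_of_le ?_
  change act (g⁻¹).1⁻¹ X.S ≤ X.S
  have e : (g⁻¹).1⁻¹ = g.1 := inv_inv g.1
  rw [e]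
  intro y hy
  obtain ⟨x, hx, rfl⟩ := mem_act.1 hy
  exact h x hx

theorem conj_smul {X : Type} [MulAction (FormGroup σ J) X] {g a : FormGroup σ J} {x : X}
    (h : a • (g⁻¹ • x) = g⁻¹ • x) : (g * a * g⁻¹) • x = x := by
  rw [mul_smul, mul_smul, h, smul_inv_smul]

/-- **[CL-FIX0], the position** -/
theorem fix0_pos (hF : Fo σ ε J) {e f : Fin 2 → n → k} (hb : HB σ J e f) {m : ℕ}
    {P : SGr σ J m} {c : SGr σ J 1} {l : SGr σ J 2} {b : SGr σ J 1} (hl : Inc l P)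
    (hbP : Inc b P) (hcb : Col c b) (hcl : ¬ Col c l) :
    ∃ g : FormGroup σ J, g.1 ∈ EU σ ε J ∧ (g⁻¹ • c).S = Submodule.span k {e 0} ∧
      (g⁻¹ • l).S = Submodule.span k {e 1} ⊔ Submodule.span k {f 0} ∧
      ∀ x ∈ (g⁻¹ • b).S, hf σ J x (e 0) = 0 ∧ hf σ J x (e 1) = 0 ∧ hf σ J x (f 0) = 0 := by
  obtain ⟨v, hv0, hvv, rfl⟩ := exists_ptv c
  have hl' : ∃ d ∈ l.S, hf σ J v d ≠ 0 := by
    by_contra hcon
    push Not at hcon
    apply hcl
    intro x hx y hy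
    obtain ⟨a, rfl⟩ := Submodule.mem_span_singleton.1 hx
    rw [hf_smul_left, hcon y hy, mul_zero]
  obtain ⟨z, d, z', hspan, hHB⟩ := exists_line_frame hF.fm hvv hl'
  obtain ⟨g, hg, a, ha, h1, h2⟩ := frame_trans hF hb hHB
  have hgF := EU_le hF.fm hg
  have iso := mem_formGroup.1 hgF
  have e0 : v ᵥ* (g⁻¹).1 = (a 0)⁻¹ • e 0 := by
    have h3 : e 0 ᵥ* g.1 = a 0 • v := h1 0
    rw [← vecMul_cancel_inv (e 0) g, h3, smul_vecMul, smul_smul, inv_mul_cancel₀ (ha 0), one_smul]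
  have e1 : z ᵥ* (g⁻¹).1 = (a 1)⁻¹ • e 1 := by
    have h3 : e 1 ᵥ* g.1 = a 1 • z := h1 1
    rw [← vecMul_cancel_inv (e 1) g, h3, smul_vecMul, smul_smul, inv_mul_cancel₀ (ha 1), one_smul]
  have hs0 : σ (a 0)⁻¹ ≠ 0 := by
    rw [Ne, map_eq_zero]
    exact inv_ne_zero (ha 0)
  have e2 : d ᵥ* (g⁻¹).1 = (σ (a 0)⁻¹)⁻¹ • f 0 := by
    have h3 : f 0 ᵥ* g.1 = σ (a 0)⁻¹ • d := h2 0
    rw [← vecMul_cancel_inv (f 0) g, h3, smul_vecMul, smul_smul, inv_mul_cancel₀ hs0, one_smul]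
  have hS : ∀ {i : ℕ} (X : SGr σ J i),
      (((⟨g⁻¹, inv_mem hgF⟩ : FormGroup σ J))⁻¹ • X).S = act g⁻¹ X.S := by
    intro i X
    change act (g⁻¹)⁻¹⁻¹ X.S = act g⁻¹ X.S
    rw [inv_inv]
  refine ⟨⟨g⁻¹, inv_mem hgF⟩, inv_mem hg, ?_, ?_, ?_⟩
  · rw [hS, ptv_S, act_span, e0]
    exact Submodule.span_singleton_smul_eq (IsUnit.mk0 _ (inv_ne_zero (ha 0))) _
  · rw [hS, hspan, act_sup, act_span, act_span, e1, e2,
      Submodule.span_singleton_smul_eq (IsUnit.mk0 _ (inv_ne_zero (ha 1))),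
      Submodule.span_singleton_smul_eq (IsUnit.mk0 _ (inv_ne_zero hs0))]
  · intro x hx
    rw [hS] at hx
    obtain ⟨y, hy, rfl⟩ := mem_act.1 hx
    have key : ∀ u w : n → k, ∀ t : k, u ᵥ* g.1 = t • w → hf σ J w y = 0 →
        hf σ J (y ᵥ* (g⁻¹).1) u = 0 := by
      intro u w t h3 h4
      rw [← iso, vecMul_inv_cancel, h3, hf_smul_right, hF.fm.symm0 h4, mul_zero]
    have hzl : z ∈ l.S := by
      rw [hspan]
      exact (le_sup_left : Submodule.span k {z} ≤ _) (Submodule.mem_span_singleton_self z)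
    have hdl : d ∈ l.S := by
      rw [hspan]
      exact (le_sup_right : Submodule.span k {d} ≤ _) (Submodule.mem_span_singleton_self d)
    exact ⟨key _ _ _ (h1 0) (hcb v (Submodule.mem_span_singleton_self v) y hy),
      key _ _ _ (h1 1) (P.sing z (hl hzl) y (hbP hy)),
      key _ _ _ (h2 0) (P.sing d (hl hdl) y (hbP hy))⟩

/-- **[CL-FIX0]**, for abstract letters `b1`, `u1`, with `g` in the group of Siegel elements -/
theorem fix0_EU (hF : Fo σ ε J) {e f : Fin 2 → n → k} (hb : HB σ J e f) {p0 : SGr σ J 1}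
    (hp0 : p0.S = Submodule.span k {e 0}) {b1 : FormGroup σ J}
    (hb1 : ∀ x, hf σ J x (e 0) = 0 → hf σ J x (f 0) = 0 → x ᵥ* b1.1.1 = x)
    (hb1f : f 0 ᵥ* b1.1.1 ∈ Submodule.span k {f 0}) {V : Type} {u1 : V → FormGroup σ J}
    (hu1 : ∀ s x, hf σ J x (e 0) = 0 → hf σ J x (e 1) = 0 → x ᵥ* (u1 s).1.1 = x)
    (hu1f : ∀ s, f 0 ᵥ* (u1 s).1.1 ∈ Submodule.span k {e 1} ⊔ Submodule.span k {f 0}) {m : ℕ}
    (P : SGr σ J m) (c : SGr σ J 1) (l : SGr σ J 2) (b : SGr σ J 1) (hl : Inc l P)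
    (hbP : Inc b P) (hcb : Col c b) (hcl : ¬ Col c l) :
    ∃ g : FormGroup σ J, g.1 ∈ EU σ ε J ∧ g • p0 = c ∧ (g * b1 * g⁻¹) • b = b ∧
      (g * b1 * g⁻¹) • l = l ∧
      ∀ s, (g * u1 s * g⁻¹) • b = b ∧ (g * u1 s * g⁻¹) • l = l := by
  obtain ⟨g, hgE, h1, h2, h3⟩ := fix0_pos hF hb hl hbP hcb hcl
  have hle : ∀ a : FormGroup σ J, e 1 ᵥ* a.1.1 = e 1 →
      f 0 ᵥ* a.1.1 ∈ Submodule.span k {e 1} ⊔ Submodule.span k {f 0} →
      a • (g⁻¹ • l) = g⁻¹ • l := by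
    intro a ha1 ha2
    refine smul_eq_of_le fun x hx => ?_
    rw [h2] at hx ⊢
    obtain ⟨y, hy, w, hw, rfl⟩ := Submodule.mem_sup.1 hx
    obtain ⟨s, rfl⟩ := Submodule.mem_span_singleton.1 hy
    obtain ⟨t, rfl⟩ := Submodule.mem_span_singleton.1 hw
    rw [add_vecMul, smul_vecMul, smul_vecMul, ha1]
    refine Submodule.add_mem _ (Submodule.smul_mem _ _ ?_) (Submodule.smul_mem _ _ ha2)
    exact (le_sup_left : Submodule.span k {e 1} ≤ _) (Submodule.mem_span_singleton_self _)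
  have hfe : hf σ J (e 1) (f 0) = 0 := by
    rw [hb.ef, if_neg]
    exact one_ne_zero
  refine ⟨g, hgE, ?_, ?_, ?_, fun s => ⟨?_, ?_⟩⟩
  · rw [smul_eq_iff_eq_inv_smul]
    refine SGr.ext ?_
    rw [h1, hp0]
  · exact conj_smul (smul_eq_of_fix fun x hx => hb1 x (h3 x hx).1 (h3 x hx).2.2)
  · exact conj_smul (hle b1 (hb1 _ (hb.ee _ _) hfe)
      ((le_sup_right : Submodule.span k {f 0} ≤ _) hb1f))
  · exact conj_smul (smul_eq_of_fix fun x hx => hu1 s x (h3 x hx).1 (h3 x hx).2.1)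
  · exact conj_smul (hle (u1 s) (hu1 s _ (hb.ee _ _) (hb.ee _ _)) (hu1f s))

/-- **[CL-FIX0]**, for abstract letters `b1`, `u1` -/
theorem fix0_gen (hF : Fo σ ε J) {e f : Fin 2 → n → k} (hb : HB σ J e f) {p0 : SGr σ J 1}
    (hp0 : p0.S = Submodule.span k {e 0}) {b1 : FormGroup σ J}
    (hb1 : ∀ x, hf σ J x (e 0) = 0 → hf σ J x (f 0) = 0 → x ᵥ* b1.1.1 = x)
    (hb1f : f 0 ᵥ* b1.1.1 ∈ Submodule.span k {f 0}) {V : Type} {u1 : V → FormGroup σ J}
    (hu1 : ∀ s x, hf σ J x (e 0) = 0 → hf σ J x (e 1) = 0 → x ᵥ* (u1 s).1.1 = x)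
    (hu1f : ∀ s, f 0 ᵥ* (u1 s).1.1 ∈ Submodule.span k {e 1} ⊔ Submodule.span k {f 0}) {m : ℕ}
    (P : SGr σ J m) (c : SGr σ J 1) (l : SGr σ J 2) (b : SGr σ J 1) (hl : Inc l P)
    (hbP : Inc b P) (hcb : Col c b) (hcl : ¬ Col c l) :
    ∃ g : FormGroup σ J, g • p0 = c ∧ (g * b1 * g⁻¹) • b = b ∧ (g * b1 * g⁻¹) • l = l ∧
      ∀ s, (g * u1 s * g⁻¹) • b = b ∧ (g * u1 s * g⁻¹) • l = l := by
  obtain ⟨g, -, h⟩ := fix0_EU hF hb hp0 hb1 hb1f hu1 hu1f P c l b hl hbP hcb hcl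
  exact ⟨g, h⟩

end Vale.Agent.P092.H541.CLF
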