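import Vale.Agent.P092.H541.CL.Fix0Lt

/-!
P092, TEAM P, stage CL-O (helper541): the Witt index of the standard forms, every kind of form
(`Fm`: the orthogonal ones included).
-/

set_option linter.all false

open scoped Matrix
open Matrix Module Set

namespace Vale.Agent.P092.H541.CLF

open Vale.Agent.P092.H303 (FormGroup Idx hyp)
open Vale.Agent.P092.H714.Cl
open Vale.Agent.P092.H714.Sg (Fm)
open Vale.Agent.P092.H370.Po (SGr Inc Sing Col WI)
open Vale.Agent.P092.H370.Fo (Fo Wf)
open Vale.Agent.P092.CL

section gen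

variable {n : Type} [Fintype n] [DecidableEq n] {k : Type} [Field k]
  {σ : k →+* k} {ε : k} {J : Matrix n n k}

/-- a singular subspace which contains every isotropic vector orthogonal to it has the maximal
dimension -/
theorem finrank_le_of_max (hF : Fm σ ε J) {U Y : Submodule k (n → k)} (hY : Sing σ J Y)
    (h : ∀ z, hf σ J z z = 0 → (∀ u ∈ U, hf σ J u z = 0) → z ∈ U) :
    finrank k Y ≤ finrank k U := by
  obtain ⟨q, hq⟩ := Submodule.exists_isCompl (Submodule.comap U.subtype Y)
  have h1 := Submodule.finrank_add_eq_of_isCompl hq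
  haveI : FiniteDimensional k U := inferInstance
  haveI : Module.Free k q := Module.Free.of_divisionRing k q
  set b := finBasis k q with hb
  let f : Y →ₗ[k] (Fin (finrank k q) → k) :=
    { toFun := fun y i => σ (hf σ J (b i).1.1 y.1)
      map_add' := fun x y => by
        funext i
        change σ (hf σ J (b i).1.1 (x.1 + y.1)) = σ (hf σ J (b i).1.1 x.1) + σ (hf σ J (b i).1.1 y.1)
        rw [hf_add_right, map_add]
      map_smul' := fun c x => by
        funext i
        change σ (hf σ J (b i).1.1 (c • x.1)) = c * σ (hf σ J (b i).1.1 x.1)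
        rw [hf_smul_right, map_mul, hF.inv] }
  have h2 := LinearMap.finrank_range_add_finrank_ker f
  have h3 : finrank k (LinearMap.range f) ≤ finrank k q := by
    refine (Submodule.finrank_le _).trans ?_
    rw [finrank_fin_fun]
  have h4 : LinearMap.ker f ≤ Submodule.comap Y.subtype U := by
    intro y hy
    refine h y.1 (hY y.1 y.2 y.1 y.2) fun u hu => ?_
    let g : q →ₗ[k] k :=
      { toFun := fun x => hf σ J x.1.1 y.1
        map_add' := fun a c => hf_add_left σ J a.1.1 c.1.1 y.1
        map_smul' := fun c a => hf_smul_left σ J c a.1.1 y.1 }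
    have hg : g = 0 := b.ext fun i => by
      have := congrFun (LinearMap.mem_ker.1 hy) i
      change σ (hf σ J (b i).1.1 y.1) = 0 at this
      rw [map_eq_zero] at this
      exact this
    have htop : (⟨u, hu⟩ : U) ∈ Submodule.comap U.subtype Y ⊔ q := by
      rw [hq.sup_eq_top]
      exact Submodule.mem_top
    obtain ⟨u1, hu1, w, hw, huw⟩ := Submodule.mem_sup.1 htop
    have e : u = u1.1 + w.1 := (congrArg Subtype.val huw).symm
    have e1 : hf σ J u1.1 y.1 = 0 := hY _ hu1 _ y.2
    have e2 : hf σ J w.1 y.1 = 0 := LinearMap.congr_fun hg ⟨w, hw⟩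
    rw [e, hf_add_left, e1, e2, add_zero]
  have h5 := Submodule.finrank_mono h4
  have h6 : finrank k ↥(Submodule.comap Y.subtype U) =
      finrank k ↥(Submodule.comap U.subtype Y) := by
    rw [← Submodule.finrank_map_subtype_eq Y (Submodule.comap Y.subtype U),
      ← Submodule.finrank_map_subtype_eq U (Submodule.comap U.subtype Y),
      Submodule.map_comap_subtype, Submodule.map_comap_subtype, inf_comm]
  omega

end gen

section hyp

variable {k : Type} [NontriviallyNormedField k] {ι : Type} [Fintype ι] [DecidableEq ι]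
  {s : ℕ} {σ : k →+* k} {ε : k} {J₀ : Matrix ι ι k}

/-- **the Witt index of the standard forms**, every kind of form -/
theorem wi_fm (hF : Fm σ ε (hyp (s + 2) ε J₀)) (han : ∀ y : ι → k, hf σ J₀ y y = 0 → y = 0) :
    WI σ (hyp (s + 2) ε J₀) (s + 2) := by
  have he : ε ≠ 0 := by
    intro h
    have := hF.eps
    rw [h, mul_zero] at this
    exact zero_ne_one this
  refine ⟨⟨m0.S, m0.sing, m0.dim⟩, fun Y hY => ?_⟩
  refine (finrank_le_of_max hF (U := (m0 (σ := σ) (ε := ε) (J₀ := J₀) (s := s)).S) hY ?_).trans
    m0.dim.le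
  intro z hz hp
  have h1 : ∀ i, z (.inl (.inr i)) = 0 := by
    intro i
    have h2 : hf σ (hyp (s + 2) ε J₀) (ep k ι i) z = 0 :=
      hp _ (Submodule.subset_span ⟨i, mem_univ _, rfl⟩)
    have h3 := hF.symm0 h2
    rw [hf_ep_right] at h3
    exact (mul_eq_zero.1 h3).resolve_left he
  have h2 : (fun i => z (.inr i)) = 0 := by
    refine han _ ?_
    rw [hf_hyp] at hz
    simpa [h1] using hz
  have h3 : z = ∑ i, z (.inl (.inl i)) • (ep k ι i : Idx (s + 2) ι → k) := by
    funext a
    rw [Finset.sum_apply]
    rcases a with (j | j) | j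
    · rw [Finset.sum_eq_single j]
      · rw [Pi.smul_apply, ep_l, if_pos rfl, smul_eq_mul, mul_one]
      · intro i _ hi
        rw [Pi.smul_apply, ep_l, if_neg hi, smul_zero]
      · intro h
        exact absurd (Finset.mem_univ j) h
    · rw [h1 j]
      refine (Finset.sum_eq_zero fun i _ => ?_).symm
      rw [Pi.smul_apply]
      have : (ep k ι i : Idx (s + 2) ι → k) (.inl (.inr j)) = 0 :=
        Pi.single_eq_of_ne (by simp) _
      rw [this, smul_zero]
    · rw [show z (.inr j) = 0 from congrFun h2 j]
      refine (Finset.sum_eq_zero fun i _ => ?_).symm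
      rw [Pi.smul_apply]
      have : (ep k ι i : Idx (s + 2) ι → k) (.inr j) = 0 :=
        Pi.single_eq_of_ne (by simp) _
      rw [this, smul_zero]
  rw [h3]
  exact Submodule.sum_mem _ fun i _ => Submodule.smul_mem _ _
    (Submodule.subset_span ⟨i, mem_univ _, rfl⟩)

/-- the standard forms of every kind which are not the split orthogonal ones -/
theorem wf_fm (hF : Fm σ ε (hyp (s + 2) ε J₀)) (han : ∀ y : ι → k, hf σ J₀ y y = 0 → y = 0)
    (hne : (∃ c, c ≠ 0 ∧ c + ε * σ c = 0) ∨ Nonempty ι) :
    Wf σ ε (hyp (s + 2) ε J₀) (s + 2) where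
  fm := hF
  wi := wi_fm hF han
  thick := by
    refine hne.imp id fun h => ?_
    haveI := h
    have h1 := Fintype.card_pos (α := ι)
    have h2 : Fintype.card (Idx (s + 2) ι) = (s + 2) + (s + 2) + Fintype.card ι := by
      unfold Idx
      rw [Fintype.card_sum, Fintype.card_sum, Fintype.card_fin]
    omega

end hyp

end Vale.Agent.P092.H541.CLF
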